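import Crest.Agent.X212.Qab60.Lh

/-! X212 / RFQ-H-CRN (helper56): the abelian solution dies outside of a long pinch neck. -/

set_option autoImplicit false
set_option linter.unusedSectionVars false
noncomputable section
open scoped Manifold ContDiff Topology InnerProductSpace Real
open MeasureTheory Set Function Filter
open Crest.Agent.R208.F (Ext)

namespace Crest.Agent.X212.Crn56
open An Num57 M Nd18 Rf65 G75 Ins26 Qab60 Cht98 Int54
open Dr59 (dM)

section gen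
variable {E : Type} [NormedAddCommGroup E] [NormedSpace ℝ E] [FiniteDimensional ℝ E]
  [MeasurableSpace E] [BorelSpace E]
  {HM : Type} [TopologicalSpace HM] {I : ModelWithCorners ℝ E HM} [I.Boundaryless]
  {M : Type} [TopologicalSpace M] [ChartedSpace HM M] [IsManifold I ∞ M] [T2Space M]
  [MeasurableSpace M] [BorelSpace M] [SecondCountableTopology M] {ι : Type} [Fintype ι]
  {F F' : Fr I M ι} {w : M → Ext E}

/-- the norm of a form sees the frames on its support only -/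
theorem l2_eq (hF : F.IsVol) (hF' : F'.IsVol) (hw : Fo I 2 w)
    (e : ∀ y, w y ≠ 0 → fv F.e y = fv F'.e y) :
    ∫ x, ‖c2 F w x‖ ^ 2 ∂F.μ = ∫ x, ‖c2 F' w x‖ ^ 2 ∂F'.μ := by
  have c : c2 F' w = c2 F w := funext fun y => by
    by_cases k : w y = 0
    · rw [c2_of_zero k, c2_of_zero k]
    · exact Map77.fm_ext fun s =>
        congrArg₂ (e2 (w y)) (congrFun (e y k) s.1).symm (congrFun (e y k) s.2).symm
  have m : MeasurableSet (support (c2 F w)) := (sm_c2 hw.sm).continuous.isOpen_support.measurableSet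
  have z : ∀ x ∉ support (c2 F w), ‖c2 F w x‖ ^ 2 = 0 := fun x k => by simpa using k
  rw [c, ← setIntegral_eq_integral_of_forall_compl_eq_zero z,
    ← setIntegral_eq_integral_of_forall_compl_eq_zero (μ := F'.μ) z, isVol_iff_rf.1 hF,
    isVol_iff_rf.1 hF', dens_congr_on m fun y hy => (isU_rf (pre_sp F.toPre y)).abs_eq
      (e y (fun k => hy (c2_of_zero k)) ▸ isU_rf (pre_sp F'.toPre y))]

end gen

section world
variable {X : Mf 4} {A κ : Type} [Fintype A] [Fintype κ] {M : Mark X A κ} {a R : A} {x : X.M}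
  (W : World M) {c : M.Cl}

theorem hf_of (h : (M.bn a).s x < 3) : x ∈ hf M a false := (lt_or_ge ((M.bn a).s x) 0).imp
  (fun k => (M.bn a).mem_sd.2 (by simpa [pm] using k))
  fun k => let ⟨_, e⟩ := (M.bn a).exists_of_abs_s_lt (abs_lt.2 ⟨by linarith, h⟩); ⟨_, e⟩

theorem not_core (h1 : c.1 = {R}) (h : x ∈ (M.sys.w R).sd false) : x ∉ M.sys.cores c.1 := by
  rw [h1, Sys.cores, biUnion_singleton]
  exact fun k => k _ h

theorem cpt (h1 : c.1 = {R}) (np : ¬M.pin R) (ha : a ∈ M.sys.fr c.1)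
    (h : hf M a false ⊆ (M.sys.w R).sd false) : IsCompact {z | hZ W.toCaps c a z ≤ 1 / 2} := by
  have := M.cpt
  refine ((isClosed_le (M.bn a).contMDiff_s.continuous continuous_const (g := fun _ => 1 / 2)
    ).isCompact.image_of_continuousOn ((W.φ c).contMDiffOn.continuousOn.mono fun x k => ?_)
    ).of_isClosed_subset (isClosed_le (sm_hZ _ (.inr ha)).continuous continuous_const) fun z k => ?_
  · exact W.src c ▸ not_core h1 (h (hf_of (lt_of_le_of_lt k (by norm_num))))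
  · obtain ⟨x, hx, rfl⟩ | ⟨_, k1, k2, -⟩ := Cyl58.caps_surj W.toCaps z
    exacts [⟨x, (hZ_φ _ (.inr ha) hx).ge.trans k, rfl⟩, (np (h1.le k1 ▸ k2)).elim]

end world

variable {κ lam : Type} [Fintype κ] [Fintype lam] [DecidableEq lam] (Lm : LM κ lam)

attribute [local instance] QD.dι

/-- **H-CRN** -/
theorem crn : HCrn Lm := by
  intro S D i Wi r n J c R e Q j n₀ T hQ H h1 _ β hβ q σ s b hq hs hσ a ha w fw cw ow zw
  have jq := jq_of hQ H h1
  have hJ := jq.ok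
  obtain ⟨τ, o, σ₀, rfl, sub, mem, -⟩ := H.gx.cell σ hs.1
  obtain ⟨p1, p2, p3⟩ := hQ.pin b
  have eτ : e b ∈ τ := by_contra fun k => nomatch (if_neg k).symm.trans hσ
  have hd : J.hd (eI e b) = some (e b) := by rw [H.gx.hd]; exact if_pos (.inl p1)
  have nc : e b ∉ c.1 := fun k => hQ.np (h1.le k ▸ p1)
  have fr : e b ∈ S.M.sys.fr c.1 := ⟨nc, fun _ k => h1.le k ▸ p2.symm⟩
  have out : ∀ x a, x ∈ (S.M.sys.w R).sd false → x ∈ (S.M.sys.w a).band →
      ¬(S.M.sys.w a).band ⊆ (S.M.sys.w R).sd true := fun x a k k' i =>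
    nomatch (S.M.sys.w R).sd_inj k (i k')
  have Rτ : R ∈ τ := by_contra fun k => one_ne_zero ((hs.2.2.ge (h1.ge rfl)).symm.trans
    ((H.gx.par τ o hs.1 s hs.2.1).2.2 R k fun i =>
      let ⟨x, hx⟩ := (S.M.sys.w R).ne false; out x R hx.2 hx.1 (hQ.fz R i)))
  obtain ⟨s₀, s1, lin⟩ := hJ.lin
  have cl : ∀ t ∈ Ico (0 : ℝ) 1, update s (eI e b) t ∈ Job.cl (cel τ o) := fun t ht =>
    ⟨fun x y k => (update_of_ne (fun i => nomatch (i ▸ k :).symm.trans hσ) _ _).trans (hs.2.1.1 x y k),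
      fun x => by
        by_cases k : x = eI e b
        · rw [k, update_self]; exact ⟨ht.1, ht.2.le⟩
        · rw [update_of_ne k]; exact hs.2.1.2 x⟩
  have ov : ∀ t ∈ Ico (0 : ℝ) 1, J.Ov (cel τ o) c (update s (eI e b) t) := fun t ht =>
    ⟨J.cl_dom (cl t ht), Set.ext fun x => ⟨fun k => by
      obtain ⟨y, k1, k2⟩ := hJ.inf _ hs.1 _ (J.cl_dom (cl t ht)) x k
      rw [update_of_ne fun i => ht.2.ne (by rwa [i, update_self] at k2)] at k2
      exact hs.2.2.le ((lin y x k1 s (s1.le.trans k2.ge)).1.trans k2), fun k => by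
      obtain ⟨y, k1, k2⟩ := hJ.inf _ hs.1 _ (J.cl_dom hs.2.1) x (hs.2.2.ge k)
      have : y ≠ eI e b := fun i => nc (Option.some.inj (hd.symm.trans (i ▸ k1)) ▸ k)
      rw [← update_of_ne this t s] at k2
      exact (lin y x k1 _ (s1.le.trans k2.ge)).1.trans k2⟩⟩
  have pm : ∀ t ∈ Ico (0 : ℝ) 1, Fin37.Pm J c (update s (eI e b) t) := fun t ht =>
    ⟨_, hs.1, cl t ht, (ov t ht).2⟩
  have i0 : (0 : ℝ) ∈ Ico (0 : ℝ) 1 := ⟨le_rfl, one_pos⟩
  have V : ∀ t ∈ Ico (0 : ℝ) 1, ∫ x, ‖c2 (J.G c (update s (eI e b) t)).F w x‖ ^ 2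
      ∂(J.G c (update s (eI e b) t)).F.μ = ∫ x, ‖c2 (J.G c (update s (eI e b) 0)).F w x‖ ^ 2
      ∂(J.G c (update s (eI e b) 0)).F.μ := fun t ht => by
    refine l2_eq ((D.W.L J.m c).F_vol _) ((D.W.L J.m c).F_vol _) fw fun z hz => ?_
    have u := ((H.gx.loc.pok _ hs.1 c ∅ ∅ ∅ nofun subset_rfl).loc _ _ (ov t ht) (ov 0 i0) fun y k => by
      have : y ≠ eI e b := fun i => k.2.2.elim (fun l => l (e b) (.inl p1) i) fun ⟨_, l, _⟩ => l
      rw [update_of_ne this, update_of_ne this]).1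
    change fv ((D.W.L J.m c).F _).e z = fv ((D.W.L J.m c).F _).e z
    rw [(D.W.L J.m c).F_e (Mark.mem_Ω _ (Pm.memO hJ (pm t ht))),
      (D.W.L J.m c).F_e (Mark.mem_Ω _ (Pm.memO hJ (pm 0 i0))),
      show J.Θ (update s (eI e b) t) = ((J.Θ (update s (eI e b) 0)).1, (J.Θ (update s (eI e b) t)).2) from
        Prod.ext u rfl]
    refine D.W.loc J.m c _ _ _ z ?_
    rintro y hy ⟨x, hx, rfl⟩
    have xb : x ∈ (S.M.sys.w y).band := (S.M.bn y).slab_subset _ hx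
    obtain ⟨x', k, k'⟩ := oI_eq hQ.np ▸ by_contra fun k => hz (ow _ k)
    obtain ⟨p, -, rfl⟩ := hx
    obtain rfl := D.W.inj (not_core h1 k) (Mark.j_not_mem c (.inr hy)) k'
    have nf : y ∉ S.fz := fun l => out _ y k xb (hQ.fz y l)
    have nt : y ∉ τ := fun l => by
      obtain rfl | ⟨b', rfl⟩ | l' := hQ.out σ₀ mem (sub Rτ) y (sub l)
      · exact hy.1 (h1.ge rfl)
      · have m : ∀ b, e b ∈ ({e false, e true} : Finset S.A) := by simp
        have := Finset.card_le_one.1 (H.one τ o hs.1 Rτ) _ (Finset.mem_inter.2 ⟨l, m b'⟩) _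
          (Finset.mem_inter.2 ⟨eτ, m b⟩)
        exact hz (zw _ ⟨_, .inr (this ▸ xb), rfl⟩)
      · exact out _ y k xb l'
    rw [(H.gx.par τ o hs.1 _ (cl t ht)).2.2 y nt nf, (H.gx.par τ o hs.1 _ (cl 0 i0)).2.2 y nt nf]
  obtain ⟨k, hk⟩ := hβ.2 q.support
  obtain ⟨cs, hc⟩ := Loc8.exists_yc S.M (e b)
  generalize hf : π • (qt D.W c Q).γ b = f at ha
  set B := √(4 * |integ (D.W.Z c).I (D.W.o c) (f * f)|)
  generalize hV : ∫ x, ‖c2 (J.G c (update s (eI e b) 0)).F w x‖ ^ 2 ∂_ = V₀ at V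
  have s2 : √2 * (1 / 4) < 1 := by nlinarith [Real.sq_sqrt zero_le_two, Real.sqrt_nonneg 2]
  refine Metric.tendsto_nhds.2 fun ε e0 => ?_
  have g : Continuous fun δ : ℝ =>
      √2 * (2 * k * (2 * 12 * (2 * δ)) * (1 / 4) + √(cs * (2 * (2 * δ)))) * B * √V₀ := by fun_prop
  obtain ⟨δ, hδ, d0⟩ := ((((g.tendsto 0).eventually_lt_const (u := (1 - √2 * (1 / 4)) * ε)
    (by simpa using mul_pos (sub_pos.2 s2) e0)).filter_mono nhdsWithin_le_nhds).and
      (self_mem_nhdsWithin (s := Ioi 0))).exists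
  obtain ⟨χ, ρ, hχ⟩ := Loc8.exists_lg d0
  filter_upwards [Ioo_mem_nhdsLT s1, Ioo_mem_nhdsLT (show (1 / 2 : ℝ) < 1 by norm_num),
    Ioo_mem_nhdsLT (sub_lt_self 1 hχ.r0)] with t t1 t2 t3
  have ht : t ∈ Ico (0 : ℝ) 1 := ⟨by linarith [t2.1], t2.2⟩
  have qe := jq.qe _ (jq.act (pm t ht))
  have O := Pm.memO hJ (pm t ht)
  have tv := (lin _ _ hd (update s (eI e b) t) (by rw [update_self]; exact t1.1.le)).1
  rw [update_self] at tv
  have pn : Pn c (J.Θ (update s (eI e b) t)) ρ (e b) :=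
    ⟨fr, p1, hJ.par _ hs.1 _ (ov t ht).1, O, t2.1.le.trans tv.ge, by rw [tv]; linarith [t3.1]⟩
  have cγ := qe.ok.cγ b
  have := qe.pc.corner (hk q (by simpa [Ball, Finsupp.sum] using hq.le) c _ (pm t ht)) s2
    (hf ▸ (cz_of_cs cγ).smul π) (hf ▸ cγ.hc.smul_left) (ha t ht)
    (pn.cut0 D.W J.m hc hχ (ok_W (D.Λ i) J.m O).1 (ok_W (D.Λ i) J.m O).2 (cpt D.W h1 hQ.np fr p3)
      (fun z hz => ?_) fun z hz => ?_) (sq_of_hcs fw.sm cw) (B := B) (Real.sqrt_nonneg _) ?_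
    (Real.sqrt_nonneg V₀) ((V t ht).le.trans (Real.sqrt_le_left (Real.sqrt_nonneg _) |>.1 le_rfl))
  · rw [← qe.integ_eq] at this
    rw [Real.dist_eq, sub_zero]
    exact lt_of_mul_lt_mul_left (this.trans_lt hδ) (sub_pos.2 s2).le
  · rw [← hf, Pi.smul_apply, show (qt D.W c Q).γ b z = 0 from ?_, smul_zero]
    refine by_contra fun l => ?_
    obtain ⟨x, hx, rfl⟩ := oI_eq hQ.np ▸ cγ.sub (subset_tsupport _ l)
    rw [hZ_φ _ (.inr fr) (not_core h1 hx)] at hz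
    exact l ((qe.ok.V b).2.2.2.2 _ ⟨x, ⟨hx, (S.M.bn _).mem_sd.2 (by simpa [M.pm] using hz)⟩, rfl⟩)
  · refine by_contra fun l => ?_
    obtain ⟨x, hx, rfl⟩ := oI_eq hQ.np ▸ by_contra fun k => l (ow _ k)
    rw [hZ_φ _ (.inr fr) (not_core h1 hx)] at hz
    exact l (zw _ ⟨x, hf_of hz, rfl⟩)
  · rw [← qe.integ_eq, Real.sq_sqrt (by positivity)]
    change -2 * integ (D.W.Z c).I (D.W.o c) (f * f) ≤ _
    linarith [neg_abs_le (integ (D.W.Z c).I (D.W.o c) (f * f)),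
      abs_nonneg (integ (D.W.Z c).I (D.W.o c) (f * f))]

end Crest.Agent.X212.Crn56
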